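import Vale.Agent.P352X.SN.Rep
import Vale.Agent.P352.BW.H26.Lcc

/-!
# P352X: the calculus of the translations (block BAS)
-/

noncomputable section

open MeasureTheory Filter Topology Complex Set

namespace Vale.Agent.P352X.Kin

open Vale.Agent.P352 SN
open GF (Ix V Theory IsLor sim o)
open H246 H496 H755 H15 BW
open H746 (nrt sim_nrt isLor_nrt)
open UniformSpace (Completion)

variable {D : Type*} [NormedAddCommGroup D] [InnerProductSpace ℂ D] {Q : Theory D}
  {A : (V → V) → D → D}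

/-- the similitudes as bounded operators -/
def UL (Q : Theory D) {s : ℝ} {L : Ix → V} (hs : 0 < s) (hL : IsLor L) (y : V) :
    Completion D →L[ℂ] Completion D := (ueC Q hs hL y).toContinuousLinearMap

@[simp] lemma UL_apply {s : ℝ} {L : Ix → V} (hs : 0 < s) (hL : IsLor L) (y : V)
    (z : Completion D) : UL Q hs hL y z = Ue Q s L y z := rfl

lemma Ue_inner {s : ℝ} {L : Ix → V} (hs : 0 < s) (hL : IsLor L) (y : V) (z w : Completion D) :
    inner ℂ (Ue Q s L y z) (Ue Q s L y w) = inner ℂ z w := (ueC Q hs hL y).inner_map_map z w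

lemma Ue_norm {s : ℝ} {L : Ix → V} (hs : 0 < s) (hL : IsLor L) (y : V) (z : Completion D) :
    ‖Ue Q s L y z‖ = ‖z‖ := (ueC Q hs hL y).norm_map z

lemma Ue_sub {s : ℝ} {L : Ix → V} (hs : 0 < s) (hL : IsLor L) (y : V) (z w : Completion D) :
    Ue Q s L y (z - w) = Ue Q s L y z - Ue Q s L y w := (ueC Q hs hL y).map_sub z w

lemma mat_ext {L M : Ix → V} (h : ∀ x, sim 1 L 0 x = sim 1 M 0 x) : L = M :=
  funext fun m => by rw [H26.sim_row L, H26.sim_row M, h]

lemma sim_comp (L L' : Ix → V) (x : V) :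
    sim 1 (fun m => sim 1 L 0 (L' m)) 0 x = sim 1 L 0 (sim 1 L' 0 x) := by
  rw [sim_lin, sim_lin L' x]
  induction (Finset.univ : Finset Ix) using Finset.induction_on with
  | empty => simp [H26.sim_00]
  | insert m s hm ih => rw [Finset.sum_insert hm, Finset.sum_insert hm, simL_add, simL_smul, ih]

/-- products of similitudes -/
lemma Ue_mul (R : Rep Q A) {s s' : ℝ} {L L' M : Ix → V} (hs : 0 < s) (hs' : 0 < s')
    (hL : IsLor L) (hL' : IsLor L') (h : ∀ x, sim 1 L 0 (sim 1 L' 0 x) = sim 1 M 0 x) (y y' : V)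
    (z : Completion D) : Ue Q s L y (Ue Q s' L' y' z) = Ue Q (s * s') M (sim s L y y') z := by
  rw [(ublock R).mul s L y s' L' y' z hs hs' hL hL',
    mat_ext (L := fun m => sim 1 L 0 (L' m)) (M := M) fun x => by rw [sim_comp, h]]

/-- similitudes and translations -/
lemma Ue_tr (R : Rep Q A) {s : ℝ} {L : Ix → V} (hs : 0 < s) (hL : IsLor L) (y x : V)
    (z : Completion D) :
    Ue Q s L y (Ue Q 1 GF.one x z) = Ue Q 1 GF.one (sim s L 0 x) (Ue Q s L y z) := by
  rw [Ue_mul R hs one_pos hL H496.isLor_one (M := L) (fun x => by rw [H26.sim_one0]),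
    Ue_mul R one_pos hs H496.isLor_one hL (M := L) (fun x => by rw [H26.sim_one0]), mul_one, one_mul,
    HM.sim_tr, HM.sim_at s L y, add_comm]

theorem urep_tr (R : Rep Q A) : URep fun y => Ue Q 1 GF.one y :=
  URep.of_lines (fun _ => Ue_one _) (fun x y v => (H26.Ue_tt (ublock R) x y v).symm)
    (fun x => Ue_inner one_pos H496.isLor_one x) fun _ v => H26L.tends_tr (ublock R) R v

/-- Borel calculi of the translations -/
abbrev TC (Q : Theory D) := BC GF.mdot fun y => Ue Q 1 GF.one y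

theorem exists_TC (R : Rep Q A) : Nonempty (TC Q) := exists_BC isPair_mdot (urep_tr R)

/-- the action on the momenta -/
def du (s : ℝ) (L : Ix → V) (p : V) : V := s • sim 1 (linv L) 0 p

lemma du_pair (s : ℝ) {L : Ix → V} (hL : IsLor L) (p y : V) :
    GF.mdot (du s L p) y = GF.mdot p (sim s L 0 y) := by
  rw [du, md_smul_l, ← md_LL hL, sim_linv hL, sim_s s, md_smul]

lemma du_pair' (s : ℝ) {L : Ix → V} (hL : IsLor L) (p y : V) :
    GF.mdot y (du s L p) = GF.mdot (sim s L 0 y) p := by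
  rw [md_comm, du_pair s hL, md_comm]

lemma du_sq (s : ℝ) {L : Ix → V} (hL : IsLor L) (p : V) :
    GF.mdot (du s L p) (du s L p) = s ^ 2 * GF.mdot p p := by
  rw [du, md_smul_l, md_smul, md_LL (isLor_linv hL)]
  ring

lemma du_cont (s : ℝ) (L : Ix → V) : Continuous (du s L) := by
  unfold du sim
  fun_prop

lemma du_meas (s : ℝ) (L : Ix → V) : Measurable (du s L) := (du_cont s L).measurable

lemma meas_md (a : V) : Measurable fun p => GF.mdot a p := (HM.H584.cont_md a).measurable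

section Cov

variable (R : Rep Q A) (C : TC Q) {s : ℝ} {L : Ix → V} (hs : 0 < s) (hL : IsLor L) (y : V)
include R hs hL

/-- **covariance of the calculus of the translations** -/
theorem U_Phi {f : V → ℂ} (hf : Bd f) (v : Completion D) :
    Ue Q s L y (C.Phi f v) = C.Phi (fun p => f (du s L p)) (Ue Q s L y v) :=
  C.cov C isPair_mdot (du_meas s L) (du_pair s hL) (UL Q hs hL y) (fun x => Ue_tr R hs hL y x v) hf

theorem U_P {B : Set V} (hB : MeasurableSet B) (v : Completion D) :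
    Ue Q s L y (C.P B v) = C.P (du s L ⁻¹' B) (Ue Q s L y v) :=
  U_Phi R C hs hL y (Bd.ind hB) v

theorem U_Psi {f : V → ℂ} {v : Completion D} (hf : C.Dom f v) :
    C.Dom (fun p => f (du s L p)) (Ue Q s L y v) ∧
      C.Psi (fun p => f (du s L p)) (Ue Q s L y v) = Ue Q s L y (C.Psi f v) :=
  C.cov_Psi C isPair_mdot (du_meas s L) (du_pair s hL) (UL Q hs hL y)
    (fun x => Ue_tr R hs hL y x v) hf

theorem nu_U (v : Completion D) : (C.nu (Ue Q s L y v)).map (du s L) = C.nu v :=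
  C.nu_cov C isPair_mdot (du_meas s L) (du_pair s hL) fun x => by
    rw [← Ue_tr R hs hL, Ue_inner hs hL]

end Cov

/-- the closed forward cone -/
def Cone : Set V := {p | 0 ≤ p o ∧ 0 ≤ GF.mdot p p}

lemma meas_cone : MeasurableSet Cone :=
  (measurableSet_le measurable_const (measurable_pi_apply o)).inter
    (measurableSet_le measurable_const HM.H584.cont_sq.measurable)

/-- **spectrum condition** on the completion -/
theorem cone (C : TC Q) (v : Completion D) : ∀ᵐ p ∂C.nu v, p ∈ Cone := by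
  refine C.ae_of_dense meas_cone Completion.denseRange_coe ?_ v
  rintro _ ⟨u, rfl⟩
  obtain ⟨ν, hν, h1, h2⟩ := Q.spectrum u
  rw [← C.nu_unique isPair_mdot (μ := ν) fun y => ?_]
  · exact h1
  · rw [ue_coe one_pos H496.isLor_one, Completion.inner_coe, h2]
    rfl

lemma Cone.md_nonneg {a p : V} (ha : IsNull a) (hp : p ∈ Cone) : 0 ≤ GF.mdot a p := by
  obtain ⟨h1, h2⟩ := ha
  obtain ⟨h3, h4⟩ := hp
  rw [gm] at h1 h4 ⊢
  change 0 < a 0 at h2
  change 0 ≤ p 0 at h3
  have h5 : (a 1 * p 1 + a 2 * p 2 + a 3 * p 3) ^ 2 ≤ (a 0 * p 0) ^ 2 := by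
    have : (a 1 * p 1 + a 2 * p 2 + a 3 * p 3) ^ 2 ≤
        (a 1 ^ 2 + a 2 ^ 2 + a 3 ^ 2) * (p 1 ^ 2 + p 2 ^ 2 + p 3 ^ 2) := by
      nlinarith [sq_nonneg (a 1 * p 2 - a 2 * p 1), sq_nonneg (a 1 * p 3 - a 3 * p 1),
        sq_nonneg (a 2 * p 3 - a 3 * p 2)]
    have h6 : a 1 ^ 2 + a 2 ^ 2 + a 3 ^ 2 = a 0 ^ 2 := by linarith
    rw [h6] at this
    nlinarith [mul_le_mul_of_nonneg_left (show p 1 ^ 2 + p 2 ^ 2 + p 3 ^ 2 ≤ p 0 ^ 2 by linarith)
      (sq_nonneg (a 0))]
  have := abs_le_of_sq_le_sq' h5 (by positivity)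
  linarith [this.2]

/-- causal vectors orthogonal to a time-like vector vanish -/
lemma eq_zero_of_orth {t p : V} (ht : 0 < GF.mdot t t) (hp : 0 ≤ GF.mdot p p)
    (h : GF.mdot t p = 0) : p = 0 := by
  rw [gm] at ht hp h
  have h1 : (t 1 * p 1 + t 2 * p 2 + t 3 * p 3) ^ 2 ≤
      (t 1 ^ 2 + t 2 ^ 2 + t 3 ^ 2) * (p 1 ^ 2 + p 2 ^ 2 + p 3 ^ 2) := by
    nlinarith [sq_nonneg (t 1 * p 2 - t 2 * p 1), sq_nonneg (t 1 * p 3 - t 3 * p 1),
      sq_nonneg (t 2 * p 3 - t 3 * p 2)]
  have h2 : t 1 * p 1 + t 2 * p 2 + t 3 * p 3 = t 0 * p 0 := by linarith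
  rw [h2] at h1
  have h3 : (t 1 ^ 2 + t 2 ^ 2 + t 3 ^ 2) * (p 1 ^ 2 + p 2 ^ 2 + p 3 ^ 2) ≤
      (t 1 ^ 2 + t 2 ^ 2 + t 3 ^ 2) * p 0 ^ 2 :=
    mul_le_mul_of_nonneg_left (by linarith) (by positivity)
  have h4 : p 0 ^ 2 ≤ 0 := by
    by_contra h5
    push Not at h5
    nlinarith [mul_pos h5 (show 0 < t 0 ^ 2 - (t 1 ^ 2 + t 2 ^ 2 + t 3 ^ 2) by linarith)]
  have h0 : p 0 = 0 := by nlinarith
  have h5 : p 1 ^ 2 + p 2 ^ 2 + p 3 ^ 2 ≤ 0 := by nlinarith
  funext i
  fin_cases i
  · exact h0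
  · change p 1 = 0; nlinarith [sq_nonneg (p 1), sq_nonneg (p 2), sq_nonneg (p 3)]
  · change p 2 = 0; nlinarith [sq_nonneg (p 1), sq_nonneg (p 2), sq_nonneg (p 3)]
  · change p 3 = 0; nlinarith [sq_nonneg (p 1), sq_nonneg (p 2), sq_nonneg (p 3)]

lemma exists_dual {a : V} (ha : IsNull a) : ∃ b, IsNull b ∧ GF.mdot a b = 1 := by
  obtain ⟨h1, h2⟩ := ha
  rw [gm] at h1
  change 0 < a 0 at h2
  refine ⟨(2 * a 0 ^ 2)⁻¹ • ![a 0, -a 1, -a 2, -a 3], ⟨?_, ?_⟩, ?_⟩
  · rw [md_smul, md_smul_l, gm]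
    simp only [Matrix.cons_val_zero, Matrix.cons_val_one, Matrix.cons_val]
    have : a 0 * a 0 - -a 1 * -a 1 - -a 2 * -a 2 - -a 3 * -a 3 = 0 := by linarith
    rw [this, mul_zero, mul_zero]
  · change 0 < (2 * a 0 ^ 2)⁻¹ * a 0
    positivity
  · rw [md_smul, gm]
    simp only [Matrix.cons_val_zero, Matrix.cons_val_one, Matrix.cons_val]
    have : a 0 * a 0 - a 1 * -a 1 - a 2 * -a 2 - a 3 * -a 3 = 2 * a 0 ^ 2 := by linarith
    rw [this, inv_mul_cancel₀ (by positivity)]

/-- the transverse momenta are bounded on the cone -/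
lemma perp_sq_le {a b e : V} (ha : IsNull a) (hb : IsNull b) (hab : GF.mdot a b = 1)
    (hae : GF.mdot a e = 0) (hbe : GF.mdot b e = 0) (hee : GF.mdot e e = -1) (p : V) :
    GF.mdot e p ^ 2 + GF.mdot p p ≤ 2 * GF.mdot a p * GF.mdot b p := by
  have h := orth_nonpos ha (x := p - GF.mdot b p • a - GF.mdot a p • b + GF.mdot e p • e) (by
    simp only [md_add, md_sub, md_smul, ha.1, hab, hae]; ring)
  simp only [md_add, md_sub, md_smul, md_add_l, md_sub_l, md_smul_l, ha.1, hb.1, hab, hae, hbe,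
    hee, md_comm b a, md_comm e a, md_comm e b, md_comm p a, md_comm p b, md_comm p e] at h
  nlinarith

lemma nrt_zero (a : V) : nrt a 0 = GF.one :=
  mat_ext fun x => by simp [sim_nrt, H26.sim_one0, GF.mdot]

lemma nrt_add {a w w' : V} (ha : IsNull a) (hw : GF.mdot a w = 0) (hw' : GF.mdot a w' = 0)
    (x : V) : sim 1 (nrt a w) 0 (sim 1 (nrt a w') 0 x) = sim 1 (nrt a (w + w')) 0 x := by
  simp only [sim_nrt, md_add, md_sub, md_smul, md_add_l, ha.1, hw', md_comm w a, hw,
    md_comm w' w]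
  module

/-- strong continuity of the null rotations -/
lemma tends_nrt (R : Rep Q A) {a w : V} (ha : IsNull a) (hw : GF.mdot a w = 0)
    (z : Completion D) : Tendsto (fun t : ℝ => Ue Q 1 (nrt a (t • w)) 0 z) (𝓝 0) (𝓝 z) := by
  refine H26L.tends_Ue (ublock R) R (fun _ => 1) (fun t => nrt a (t • w)) (fun _ => 0)
    (fun x => -(2 * GF.mdot w x) • a + (2 * GF.mdot a x) • w) rfl (by rw [zero_smul, nrt_zero]) rfl
    (fun t => ⟨one_pos, H26.lor_c ha hw t⟩) (fun n x => ?_) z
  simp only [sim_nrt, md_smul, md_smul_l, Pi.add_apply, Pi.sub_apply, Pi.smul_apply, smul_eq_mul]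
  have h1 := hasDerivAt_id (0 : ℝ)
  have h := (((((h1.mul_const (GF.mdot w x)).const_mul 2).mul_const (a n)).const_sub (x n)).add
    ((h1.mul_const (w n)).const_mul (2 * GF.mdot a x))).sub
    (((((h1.mul (h1.mul_const (GF.mdot w w))).const_mul 2).mul_const (GF.mdot a x)).mul_const
      (a n)))
  exact h.congr_deriv (by simp)

/-- uniqueness of the vacuum in the completion -/
def UVac (Q : Theory D) : Prop :=
  ∀ z : Completion D, (∀ y, Ue Q 1 GF.one y z = z) → ∃ c : ℂ, z = c • om Q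

lemma norm_om : ‖om Q‖ = 1 := by rw [om, Completion.norm_coe, Q.norm_vac]

lemma inner_om : inner ℂ (om Q) (om Q) = 1 := by
  rw [inner_self_eq_norm_sq_to_K, norm_om]
  simp

section Vac

variable (R : Rep Q A) (C : TC Q)
include R

lemma nu_om : C.nu (om Q) = Measure.dirac 0 := by
  refine (C.nu_unique isPair_mdot fun y => ?_).symm
  rw [integral_dirac, (ublock R).vac 1 _ y one_pos H496.isLor_one, inner_om]
  simp [ch, GF.mdot]

lemma Phi_om {f : V → ℂ} (hf : Bd f) : C.Phi f (om Q) = f 0 • om Q := by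
  rw [← C.const_apply]
  refine C.congr_ae hf (Bd.const _) ?_
  rw [nu_om R C]
  exact ae_eq_dirac f

lemma inner_om_Phi {f : V → ℂ} (hf : Bd f) (v : Completion D) :
    inner ℂ (om Q) (C.Phi f v) = f 0 * inner ℂ (om Q) v := by
  rw [C.adj' hf, Phi_om R C hf.cj, inner_smul_left, conj_conj]

lemma inner_om_U {s : ℝ} {L : Ix → V} (hs : 0 < s) (hL : IsLor L) (y : V) (v : Completion D) :
    inner ℂ (om Q) (Ue Q s L y v) = inner ℂ (om Q) v := by
  rw [← Ue_inner (Q := Q) hs hL y (om Q) v, (ublock R).vac s L y hs hL]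

/-- the ray of a null vector has measure zero -/
theorem nu_ray {a : V} (ha : IsNull a) (v : Completion D) :
    C.nu v {p | GF.mdot a p = 0 ∧ p ≠ 0} = 0 := by
  obtain ⟨b, hb, hab⟩ := exists_dual ha
  obtain ⟨w, haw, hbw, hww⟩ := H993.exists_w a b
  have hA : MeasurableSet {p : V | (GF.mdot a p = 0 ∧ p ≠ 0) ∧ p ∈ Cone} :=
    ((measurableSet_eq_fun (meas_md a) measurable_const).inter
      (measurableSet_singleton 0).compl).inter meas_cone
  have h := Calc.nu_zero_of_move (C := C.toCalc) (v := v) (l := 𝓝[≠] (0 : ℝ))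
    (W := fun t => Ue Q 1 (nrt b (t • w)) 0) (k := fun t => du 1 (nrt b (t • w)))
    (fun _ => du_meas _ _) hA (fun t => U_P R C one_pos (H26.lor_c hb hbw t) 0 hA v)
    ((tends_nrt R hb hbw _).mono_left nhdsWithin_le_nhds) (by
      filter_upwards [self_mem_nhdsWithin] with t ht p hp h1
      have h2 := h1.1.1
      rw [du_pair' 1 (H26.lor_c hb hbw t)] at h2
      refine hp.1.2 (eq_zero_of_orth (t := a + sim 1 (nrt b (t • w)) 0 a) ?_ hp.2.2 ?_)
      · have : 0 < t ^ 2 := by have : t ≠ 0 := ht; positivity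
        rw [md_add, md_add_l, md_add_l, md_LL (H26.lor_c hb hbw t), ha.1, md_comm _ a]
        simp only [sim_nrt, md_add, md_sub, md_smul, md_smul_l, ha.1, hab, haw, hww,
          md_comm w a, md_comm b a]
        nlinarith
      · rw [md_add_l, hp.1.1, h2, add_zero])
  refine measure_mono_null_ae ?_ h
  filter_upwards [cone C v] with p h1 h2
  exact ⟨h2, h1⟩

/-- the space-like directions `w`: hyperplanes `w·p = 0` off the ray have measure zero -/
theorem nu_perp0 {a w : V} (ha : IsNull a) (haw : GF.mdot a w = 0) (hww : GF.mdot w w ≠ 0)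
    (v : Completion D) : C.nu v {p | GF.mdot w p = 0 ∧ GF.mdot a p ≠ 0} = 0 := by
  have hA : MeasurableSet {p : V | GF.mdot w p = 0 ∧ GF.mdot a p ≠ 0} :=
    (measurableSet_eq_fun (meas_md w) measurable_const).inter
      (measurableSet_eq_fun (meas_md a) measurable_const).compl
  refine Calc.nu_zero_of_move (C := C.toCalc) (v := v) (l := 𝓝[≠] (0 : ℝ))
    (W := fun t => Ue Q 1 (nrt a (t • w)) 0) (k := fun t => du 1 (nrt a (t • w)))
    (fun _ => du_meas _ _) hA (fun t => U_P R C one_pos (H26.lor_c ha haw t) 0 hA v)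
    ((tends_nrt R ha haw _).mono_left nhdsWithin_le_nhds) ?_
  filter_upwards [self_mem_nhdsWithin] with t ht p hp h1
  have h2 := h1.1
  rw [du_pair' 1 (H26.lor_c ha haw t)] at h2
  simp only [sim_nrt, md_add_l, md_sub_l, md_smul_l, haw, hp.1] at h2
  have h3 : t * GF.mdot w w * GF.mdot a p = 0 := by linarith
  exact mul_ne_zero (mul_ne_zero ht hww) hp.2 h3

variable (hV : UVac Q)
include hV

theorem P_zero (v : Completion D) : C.P {0} v = inner ℂ (om Q) v • om Q := by
  have hA := measurableSet_singleton (0 : V)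
  obtain ⟨c, hc⟩ := hV (C.P {0} v) fun y => (C.inv_iff isPair_mdot y _).2 (by
    rw [Calc.nu_P hA]
    filter_upwards [ae_restrict_mem hA] with p hp
    rw [hp]
    simp [ch, GF.mdot])
  have h1 := inner_om_Phi R C (Bd.ind hA) v
  rw [← Calc.P, hc, inner_smul_right, inner_om] at h1
  rw [hc]
  simpa using congrArg (· • om Q) h1

theorem nu_zero {v : Completion D} (hv : inner ℂ (om Q) v = 0) : C.nu v {0} = 0 := by
  rw [C.nu_eq_zero (measurableSet_singleton 0), P_zero R C hV, hv, zero_smul]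

/-- **BAS (b)**: the light cone momenta do not vanish on vectors orthogonal to the vacuum -/
theorem ae_md_pos {a : V} (ha : IsNull a) {v : Completion D} (hv : inner ℂ (om Q) v = 0) :
    ∀ᵐ p ∂C.nu v, 0 < GF.mdot a p := by
  filter_upwards [cone C v, measure_eq_zero_iff_ae_notMem.1 (nu_ray R C ha v),
    measure_eq_zero_iff_ae_notMem.1 (nu_zero R C hV hv)] with p h1 h2 h3
  exact (Cone.md_nonneg ha h1).lt_of_ne fun h => h2 ⟨h.symm, h3⟩

theorem ae_perp_ne {a w : V} (ha : IsNull a) (haw : GF.mdot a w = 0) (hww : GF.mdot w w ≠ 0)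
    {v : Completion D} (hv : inner ℂ (om Q) v = 0) : ∀ᵐ p ∂C.nu v, GF.mdot w p ≠ 0 := by
  filter_upwards [ae_md_pos R C hV ha hv,
    measure_eq_zero_iff_ae_notMem.1 (nu_perp0 R C ha haw hww v)] with p h1 h2 h3
  exact h2 ⟨h3, h1.ne'⟩

omit hV in
lemma P_vac {B : Set V} (hB : MeasurableSet B) (h0 : (0 : V) ∈ B)
    (h : ∀ v, inner ℂ (om Q) v = 0 → ∀ᵐ p ∂C.nu v, p ∉ B) (v : Completion D) :
    C.P B v = inner ℂ (om Q) v • om Q := by
  have h1 := (C.nu_eq_zero hB _).1 (measure_eq_zero_iff_ae_notMem.2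
    (h (v - inner ℂ (om Q) v • om Q) (by rw [inner_sub_right, inner_smul_right, inner_om]; simp)))
  rw [map_sub, map_smul, sub_eq_zero] at h1
  rw [h1, Calc.P, Phi_om R C (Bd.ind hB), indicator_of_mem h0, one_smul]

include C in
/-- **WN**: similitudes that rescale a null vector by factors tending to zero or infinity map the
vectors orthogonal to the vacuum weakly to zero -/
theorem weak_null {a : V} (ha : IsNull a) {ι : Type*} {l : Filter ι} [l.IsCountablyGenerated]
    {s r : ι → ℝ} {L : ι → Ix → V} (hs : ∀ i, 0 < s i) (hL : ∀ i, IsLor (L i)) (y : ι → V)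
    (hr : ∀ i, sim (s i) (L i) 0 a = r i • a) (h : Tendsto r l atTop ∨ Tendsto r l (𝓝 0))
    {η : Completion D} (hη : inner ℂ (om Q) η = 0) {E : ι → Completion D}
    (hE : Tendsto E l (𝓝 η)) (w : Completion D) :
    Tendsto (fun i => inner ℂ w (Ue Q (s i) (L i) (y i) (E i))) l (𝓝 (0 : ℂ)) := by
  have hA : ∀ n : ℕ, MeasurableSet {p : V | ((n : ℝ) + 1)⁻¹ ≤ |GF.mdot a p| ∧
      |GF.mdot a p| ≤ (n : ℝ) + 1} := fun n =>
    (measurableSet_le measurable_const (meas_md a).abs).inter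
      (measurableSet_le (meas_md a).abs measurable_const)
  refine Calc.weak_null (C := C.toCalc) (C' := C.toCalc) (K := 1)
    (fun i u u' => by rw [← Ue_sub (hs i) (hL i), Ue_norm (hs i) (hL i), one_mul])
    (fun i u => by rw [Ue_norm (hs i) (hL i), one_mul]) (fun i => du_meas (s i) (L i)) hA
    (fun i n => U_P R C (hs i) (hL i) (y i) (hA n) η) ?_ (fun n => Eventually.of_forall fun p => ?_)
    hE
  · filter_upwards [ae_md_pos R C hV ha hη] with p hp
    have h1 : Tendsto (fun n : ℕ => (n : ℝ) + 1) atTop atTop :=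
      tendsto_natCast_atTop_atTop.atTop_add tendsto_const_nhds
    filter_upwards [h1.inv_tendsto_atTop.eventually_le_const (abs_pos.2 hp.ne'),
      h1.eventually_ge_atTop |GF.mdot a p|] with n h2 h3
    exact ⟨h2, h3⟩
  · have hn : (0 : ℝ) < ((n : ℝ) + 1)⁻¹ := by positivity
    simp only [mem_ofPred_eq, du_pair' _ (hL _), hr, md_smul_l]
    rcases h with h | h
    · by_cases h0 : GF.mdot a p = 0
      · exact Eventually.of_forall fun i h1 => by simp [h0] at h1; linarith [h1.1]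
      · filter_upwards [((tendsto_abs_atTop_atTop.comp h).atTop_mul_const
          (abs_pos.2 h0)).eventually_gt_atTop ((n : ℝ) + 1)] with i hi h1
        rw [abs_mul] at h1
        exact absurd h1.2 (not_le.2 hi)
    · have h1 := (h.mul_const (GF.mdot a p)).abs
      rw [zero_mul, abs_zero] at h1
      filter_upwards [h1.eventually_lt_const hn] with i hi h2
      exact absurd h2.1 (not_le.2 hi)

include C in
/-- **THIN**: averages over large parts of a subgroup of translations that contains a null or a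
space-like direction converge to the projection onto the vacuum -/
theorem thin {E : Type*} [NormedAddCommGroup E] [NormedSpace ℝ E] [FiniteDimensional ℝ E]
    [MeasurableSpace E] [BorelSpace E] (μ : Measure E) [μ.IsAddHaarMeasure] (e : E →L[ℝ] V)
    {x : E} (hx : IsNull (e x) ∨ ∃ a, IsNull a ∧ GF.mdot a (e x) = 0 ∧ GF.mdot (e x) (e x) ≠ 0)
    {u : E → ℂ} (hu : Integrable u μ) (v : Completion D) :
    Tendsto (fun t : ℝ => ∫ y, u y • Ue Q 1 GF.one (e (t • y)) v ∂μ) atTop
      (𝓝 ((∫ y, u y ∂μ) • inner ℂ (om Q) v • om Q)) := by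
  obtain ⟨hB, h⟩ := C.ergodic isPair_mdot μ e hu v
  rwa [P_vac R C hB (fun y => by simp [GF.mdot]) fun v hv => ?_] at h
  rcases hx with hx | ⟨a, ha, h1, h2⟩
  · filter_upwards [ae_md_pos R C hV hx hv] with p hp h3
    exact hp.ne' ((md_comm _ _).trans (h3 x))
  · filter_upwards [ae_perp_ne R C hV ha h1 h2 hv] with p hp h3
    exact hp ((md_comm _ _).trans (h3 x))

end Vac

/-- **PIG**: vectors that are Lipschitz under the null rotations that fix `b` have small
components at small `a·p` and not too small `b·p` -/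
theorem pig (R : Rep Q A) (C : TC Q) {a b e : V} (ha : IsNull a) (hb : IsNull b)
    (hab : GF.mdot a b = 1) (hae : GF.mdot a e = 0) (hbe : GF.mdot b e = 0)
    (hee : GF.mdot e e = -1) {ρ lam σ Λ : ℝ} (hl : 0 < lam) (hσ : 0 < σ)
    (h : 2 * ρ < σ ^ 2 * lam) {w : Completion D}
    (hw : ∀ t : ℝ, 0 ≤ t → ‖Ue Q 1 (nrt b (t • e)) 0 w - w‖ ≤ Λ * t) {N : ℕ} (hN : 0 < N) :
    ‖C.P {p | GF.mdot a p ≤ ρ ∧ lam ≤ GF.mdot b p} w‖ ≤ ‖w‖ / √N + Λ * (N * σ) := by
  have hA : MeasurableSet {p : V | GF.mdot a p ≤ ρ ∧ lam ≤ GF.mdot b p} :=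
    (measurableSet_le (meas_md a) measurable_const).inter
      (measurableSet_le measurable_const (meas_md b))
  have hB : MeasurableSet {p : V | |GF.mdot e p| < σ * GF.mdot b p} :=
    measurableSet_lt (meas_md e).abs (measurable_const.mul (meas_md b))
  have hΛ : 0 ≤ Λ := by simpa using (norm_nonneg _).trans (hw 1 zero_le_one)
  refine (Calc.norm_P_mono hA hB ?_).trans ?_
  · filter_upwards [cone C w] with p hp h1
    have h2 := perp_sq_le ha hb hab hae hbe hee p
    have h3 : 0 < GF.mdot b p := hl.trans_le h1.2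
    refine abs_lt_of_sq_lt_sq ?_ (by positivity)
    nlinarith [hp.2, mul_le_mul_of_nonneg_right h1.1 h3.le, mul_lt_mul_of_pos_right h h3,
      mul_le_mul_of_nonneg_left h1.2 (mul_nonneg (sq_nonneg σ) h3.le)]
  have h1 := Calc.pigeon_move (C := C.toCalc) (v := w) (s := Finset.range N)
    (Finset.nonempty_range_iff.2 hN.ne') (W := fun j : ℕ => Ue Q 1 (nrt b ((j * σ) • e)) 0)
    (fun j => Ue_norm one_pos (H26.lor_c hb hbe _) 0) (k := fun j : ℕ => du 1 (nrt b ((j * σ) • e)))
    (fun _ => du_meas _ _) hB (fun j => U_P R C one_pos (H26.lor_c hb hbe _) 0 hB w)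
    (fun i _ j _ hij p h1 h2 => by
      simp only [mem_ofPred_eq, du_pair' 1 (H26.lor_c hb hbe _), sim_nrt, md_add_l, md_sub_l,
        md_smul_l, md_smul, hbe, hee, hb.1, md_comm e b, abs_lt] at h1 h2
      have h3 : 0 < σ * GF.mdot b p := by linarith [h1.1, h1.2]
      rcases lt_or_gt_of_ne hij with h4 | h4
      · have : (i : ℝ) + 1 ≤ j := by exact_mod_cast h4
        nlinarith [h1.1, h2.2]
      · have : (j : ℝ) + 1 ≤ i := by exact_mod_cast h4
        nlinarith [h1.2, h2.1]) (ε := Λ * (N * σ)) (fun j hj => (hw _ (by positivity)).trans (by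
      have : (j : ℝ) ≤ N := by exact_mod_cast (Finset.mem_range.1 hj).le
      gcongr))
  rwa [Finset.card_range] at h1

end Vale.Agent.P352X.Kin

end
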