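import Vale.Agent.P352X.SN.Tool2
import Vale.Agent.P352X.Kin.Tr
import Vale.Agent.P352.BW.H268.Grp1

/-!
# P352X: the joint calculus of `K`, `M₁`, `M₂` and `P` (block KT)
-/

noncomputable section

open MeasureTheory Filter Topology Complex Set
open scoped ComplexConjugate

namespace Vale.Agent.P352X.Kin

open Vale.Agent.P352 SN
open GF (Ix V Theory IsLor sim o)
open H246 H496 H755 H15 BW
open H746 (nrt sim_nrt isLor_nrt nrt_fix)
open UniformSpace (Completion)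

/-- null frames -/
structure Fr (a b : V) (e : Fin 2 → V) : Prop where
  ha : IsNull a
  hb : IsNull b
  hab : GF.mdot a b = 1
  hae : ∀ i, GF.mdot a (e i) = 0
  hbe : ∀ i, GF.mdot b (e i) = 0
  hee : ∀ i j, GF.mdot (e i) (e j) = if i = j then -1 else 0

lemma Fr.symm {a b : V} {e : Fin 2 → V} (F : Fr a b e) : Fr b a e :=
  ⟨F.hb, F.ha, (md_comm _ _).trans F.hab, F.hbe, F.hae, F.hee⟩

/-- the transverse plane -/
abbrev E2 := Fin 2 → ℝ

/-- transverse vectors -/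
def tv (e : Fin 2 → V) (w : E2) : V := w 0 • e 0 + w 1 • e 1

lemma tv_add (e : Fin 2 → V) (w w' : E2) : tv e (w + w') = tv e w + tv e w' := by
  simp only [tv, Pi.add_apply]
  module

lemma tv_smul (e : Fin 2 → V) (t : ℝ) (w : E2) : tv e (t • w) = t • tv e w := by
  simp only [tv, Pi.smul_apply, smul_eq_mul]
  module

lemma tv_zero (e : Fin 2 → V) : tv e 0 = 0 := by simp [tv]

lemma tv_cont (e : Fin 2 → V) : Continuous (tv e) := by
  unfold tv
  fun_prop

lemma dot2 (m w : E2) : dot m w = m 0 * w 0 + m 1 * w 1 := by simp [dot, Fin.sum_univ_two]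

namespace Fr

variable {a b : V} {e : Fin 2 → V} (F : Fr a b e)
include F

lemma a_tv (w : E2) : GF.mdot a (tv e w) = 0 := by simp [tv, md_add, md_smul, F.hae]

lemma b_tv (w : E2) : GF.mdot b (tv e w) = 0 := by simp [tv, md_add, md_smul, F.hbe]

lemma tv_tv (w w' : E2) : GF.mdot (tv e w) (tv e w') = -dot w w' := by
  simp [tv, md_add, md_smul, md_add_l, md_smul_l, F.hee, dot2]
  ring

end Fr

/-- the null rotation `G_w` -/
def Gm (a : V) (e : Fin 2 → V) (w : E2) : Ix → V := nrt a ((2⁻¹ : ℝ) • tv e w)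

namespace Fr

variable {a b : V} {e : Fin 2 → V} (F : Fr a b e)
include F

lemma lor (w : E2) : IsLor (Gm a e w) := H26.lor_c F.ha (F.a_tv w) _

lemma sim_Gm (w : E2) (z : V) : sim 1 (Gm a e w) 0 z = z - GF.mdot (tv e w) z • a +
    GF.mdot a z • tv e w + (dot w w / 2 * GF.mdot a z) • a := by
  simp only [Gm, sim_nrt, md_smul, md_smul_l, F.tv_tv]
  module

lemma Gm_a (w : E2) (t : ℝ) : sim 1 (Gm a e w) 0 (t • a) = t • a := by
  rw [simL_smul, Gm, nrt_fix F.ha (by rw [md_smul, F.a_tv, mul_zero])]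

lemma Gm_tv (w y : E2) : sim 1 (Gm a e w) 0 (tv e y) = tv e y + dot w y • a := by
  simp only [F.sim_Gm, F.tv_tv, F.a_tv]
  module

lemma Gm_add (w w' : E2) (z : V) :
    sim 1 (Gm a e w) 0 (sim 1 (Gm a e w') 0 z) = sim 1 (Gm a e (w + w')) 0 z := by
  rw [Gm, Gm, Gm, nrt_add F.ha (by rw [md_smul, F.a_tv, mul_zero])
    (by rw [md_smul, F.a_tv, mul_zero]), tv_add, smul_add]

end Fr

lemma Gm_zero (a : V) (e : Fin 2 → V) : Gm a e 0 = GF.one := by
  rw [Gm, tv_zero, smul_zero, nrt_zero]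

variable {D : Type*} [NormedAddCommGroup D] [InnerProductSpace ℂ D] {Q : Theory D}
  {A : (V → V) → D → D} {𝒜 : Set V → VonNeumannAlgebra (Completion D)}
  {S : V → ℝ → Completion D →L[ℂ] Completion D} {a b : V} {e : Fin 2 → V}

theorem urep_G (R : Rep Q A) (F : Fr a b e) : URep fun w : E2 => Ue Q 1 (Gm a e w) 0 := by
  refine URep.of_lines (fun v => by rw [Gm_zero, Ue_one]) (fun x y v => ?_)
    (fun x => Ue_inner one_pos (F.lor x) 0) fun y v => ?_
  · rw [Ue_mul R one_pos one_pos (F.lor x) (F.lor y) (F.Gm_add x y), mul_one, H26.sim_00]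
  · simp only [Gm, tv_smul, smul_comm (2⁻¹ : ℝ)]
    exact tends_nrt R F.ha (by rw [md_smul, F.a_tv, mul_zero]) v

theorem urep_a (R : Rep Q A) (a : V) : URep fun t : ℝ => Ue Q 1 GF.one (t • a) :=
  (urep_tr R).comp (fun x y => add_smul x y a) (by fun_prop)

theorem urep_S (h : Grp0 Q 𝒜 S) (ha : IsNull a) : URep fun (c : ℝ) z => S a c z :=
  ⟨fun v => by rw [h.zero a ha]; rfl, fun x y v => by rw [h.add a x y ha]; rfl,
    fun x v w => h.inn a x v w ha, fun v => h.cont a v ha⟩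

lemma G_a (R : Rep Q A) (F : Fr a b e) (w : E2) (t : ℝ) (z : Completion D) :
    Ue Q 1 (Gm a e w) 0 (Ue Q 1 GF.one (t • a) z) =
      Ue Q 1 GF.one (t • a) (Ue Q 1 (Gm a e w) 0 z) := by
  rw [Ue_tr R one_pos (F.lor w), F.Gm_a]

lemma G_tv (R : Rep Q A) (F : Fr a b e) (w y : E2) (z : Completion D) :
    Ue Q 1 (Gm a e w) 0 (Ue Q 1 GF.one (tv e y) z) =
      Ue Q 1 GF.one (tv e y + dot w y • a) (Ue Q 1 (Gm a e w) 0 z) := by
  rw [Ue_tr R one_pos (F.lor w), F.Gm_tv]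

lemma S_G (h : Grp0 Q 𝒜 S) (F : Fr a b e) (c : ℝ) (w : E2) (z : Completion D) :
    S a c (Ue Q 1 (Gm a e w) 0 z) = Ue Q 1 (Gm a e w) 0 (S a c z) := by
  have := h.cov 1 (Gm a e w) 1 a a c z one_pos one_pos (F.lor w) F.ha F.ha
    (by simpa using F.Gm_a w 1)
  rw [this, div_one, one_mul]

lemma S_a (h : Grp1 Q 𝒜 S) (ha : IsNull a) (c t : ℝ) (z : Completion D) :
    S a c (Ue Q 1 GF.one (t • a) z) = Ue Q 1 GF.one (t • a) (S a c z) := by
  have := h.tra a (t • a) c GF.one z ha (by rw [md_smul, ha.1, mul_zero]) H496.isLor_one fun x => by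
    simp only [H26.sim_one0, md_smul, md_smul_l, ha.1]
    module
  simpa [md_smul, md_smul_l, ha.1] using this

lemma S_tv (R : Rep Q A) (h : Grp1 Q 𝒜 S) (F : Fr a b e) (c : ℝ) (y : E2) (z : Completion D) :
    S a c (Ue Q 1 GF.one (tv e y) z) = Ue Q 1 GF.one (tv e y + (c * dot y y) • a)
      (Ue Q 1 (Gm a e ((2 * c) • y)) 0 (S a c z)) := by
  rw [h.tra a (tv e y) c (Gm a e ((2 * c) • y)) z F.ha (F.a_tv y) (F.lor _) fun x => by
      simp only [F.sim_Gm, tv_smul, md_smul_l, F.tv_tv, dot2, Pi.smul_apply, smul_eq_mul]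
      module,
    Ue_mul R one_pos one_pos H496.isLor_one (F.lor _) (fun x => H26.sim_one0 _), mul_one,
    HM.sim_tr, zero_add, F.tv_tv]
  congr 1
  module

/-- the joint spectrum: `(k, m, p)`, and the parameters `(c, w, t)` -/
abbrev KX := ℝ × E2 × ℝ

/-- the pairing -/
def pk (q y : KX) : ℝ := q.1 * y.1 + (dot q.2.1 y.2.1 + q.2.2 * y.2.2)

theorem isPair_pk : IsPair pk := isPair_mul.prod (isPair_dot.prod isPair_mul)

/-- the representation `exp i (c K + w·M + t P)` -/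
def Wk (Q : Theory D) (S : V → ℝ → Completion D →L[ℂ] Completion D) (a : V) (e : Fin 2 → V)
    (y : KX) (z : Completion D) : Completion D :=
  S a y.1 (Ue Q 1 (Gm a e y.2.1) 0 (Ue Q 1 GF.one (y.2.2 • a) z))

theorem urep_Wk (R : Rep Q A) (h : Grp1 Q 𝒜 S) (F : Fr a b e) : URep (Wk Q S a e) :=
  (urep_S h.toGrp0 F.ha).prod ((urep_G R F).prod (urep_a R a) (G_a R F)) fun c y z => by
    simp only [S_G h.toGrp0 F, S_a h F.ha]

/-- joint calculi of `K`, `M`, `P` -/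
abbrev KC (Q : Theory D) (S : V → ℝ → Completion D →L[ℂ] Completion D) (a : V) (e : Fin 2 → V) :=
  BC pk (Wk Q S a e)

theorem exists_KC (R : Rep Q A) (h : Grp1 Q 𝒜 S) (F : Fr a b e) : Nonempty (KC Q S a e) :=
  exists_BC isPair_pk (urep_Wk R h F)

lemma Wk_S (c : ℝ) (z : Completion D) : Wk Q S a e (c, 0, 0) z = S a c z := by
  simp only [Wk, Gm_zero, zero_smul, Ue_one]

lemma Wk_G (h : Grp0 Q 𝒜 S) (ha : IsNull a) (w : E2) (z : Completion D) :
    Wk Q S a e (0, w, 0) z = Ue Q 1 (Gm a e w) 0 z := by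
  simp only [Wk, zero_smul, Ue_one, h.zero a ha, one_apply_eq_self]

lemma Wk_a (h : Grp0 Q 𝒜 S) (ha : IsNull a) (t : ℝ) (z : Completion D) :
    Wk Q S a e (0, 0, t) z = Ue Q 1 GF.one (t • a) z := by
  simp only [Wk, Gm_zero, Ue_one, h.zero a ha, one_apply_eq_self]

/-- the action of the transverse translations on the joint spectrum -/
def ky (y : E2) (q : KX) : KX :=
  (q.1 - 2 * dot y q.2.1 + dot y y * q.2.2, q.2.1 - q.2.2 • y, q.2.2)

lemma ky_meas (y : E2) : Measurable (ky y) := by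
  unfold ky
  simp only [dot2]
  fun_prop

/-- the geometric part `M² / P` -/
def k0 (q : KX) : ℝ := dot q.2.1 q.2.1 / q.2.2

/-- the translation invariant part `K - M² / P` -/
def kt (q : KX) : ℝ := q.1 - k0 q

lemma k0_meas : Measurable k0 := by
  unfold k0
  simp only [dot2]
  fun_prop

lemma kt_meas : Measurable kt := measurable_fst.sub k0_meas

lemma kt_ky (y : E2) {q : KX} (hq : 0 < q.2.2 ∨ q = 0) : kt (ky y q) = kt q := by
  rcases hq with hq | rfl
  · simp only [kt, k0, ky, dot2, Pi.sub_apply, Pi.smul_apply, smul_eq_mul]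
    field_simp
    ring
  · simp [kt, k0, ky, dot2]

/-- the action of the similitudes that preserve the frame -/
def ks (σ ρ : ℝ) (q : KX) : KX := (ρ / σ * q.1, ρ • q.2.1, σ * ρ * q.2.2)

lemma ks_meas (σ ρ : ℝ) : Measurable (ks σ ρ) := by
  unfold ks
  fun_prop

lemma k0_ks {σ ρ : ℝ} (hρ : ρ ≠ 0) (q : KX) : k0 (ks σ ρ q) = ρ / σ * k0 q := by
  simp only [k0, ks, dot2, Pi.smul_apply, smul_eq_mul]
  field_simp

lemma kt_ks {σ ρ : ℝ} (hρ : ρ ≠ 0) (q : KX) : kt (ks σ ρ q) = ρ / σ * kt q := by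
  rw [kt, k0_ks hρ, kt, mul_sub]
  rfl

section Calc

variable (C : KC Q S a e)

lemma Phi_S (c : ℝ) (z : Completion D) :
    C.Phi (fun q => cexp (I * (c * q.1 : ℝ))) z = S a c z := by
  rw [← Wk_S (Q := Q) (e := e), ← C.Phi_ch]
  congr 2
  funext q
  simp [ch, pk, dot2, mul_comm c]

lemma Phi_G (h : Grp0 Q 𝒜 S) (ha : IsNull a) (w : E2) (z : Completion D) :
    C.Phi (fun q => cexp (I * (dot w q.2.1 : ℝ))) z = Ue Q 1 (Gm a e w) 0 z := by
  rw [← Wk_G h ha, ← C.Phi_ch]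
  congr 2
  funext q
  simp [ch, pk, dot2, mul_comm (w _)]

lemma Phi_a (h : Grp0 Q 𝒜 S) (ha : IsNull a) (t : ℝ) (z : Completion D) :
    C.Phi (fun q => cexp (I * (t * q.2.2 : ℝ))) z = Ue Q 1 GF.one (t • a) z := by
  rw [← Wk_a (e := e) h ha, ← C.Phi_ch]
  congr 2
  funext q
  simp [ch, pk, dot2, mul_comm t]

/-- the generator `K` -/
theorem der_S {v u : Completion D} : HasDerivAt (fun c : ℝ => S a c v) (I • u) 0 ↔
    C.Dom (fun q => (q.1 : ℂ)) v ∧ C.Psi (fun q => (q.1 : ℂ)) v = u := by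
  simpa [pk, dot2, Wk_S] using C.hasDerivAt_iff isPair_pk (y := (1, 0, 0)) (v := v) (u := u)

/-- the generators `w·M` -/
theorem der_G (h : Grp0 Q 𝒜 S) (ha : IsNull a) (w : E2) {v u : Completion D} :
    HasDerivAt (fun t : ℝ => Ue Q 1 (Gm a e (t • w)) 0 v) (I • u) 0 ↔
      C.Dom (fun q => (dot q.2.1 w : ℝ)) v ∧ C.Psi (fun q => (dot q.2.1 w : ℝ)) v = u := by
  simpa [pk, Wk_G h ha] using C.hasDerivAt_iff isPair_pk (y := (0, w, 0)) (v := v) (u := u)

/-- the generator `P` -/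
theorem der_a (h : Grp0 Q 𝒜 S) (ha : IsNull a) {v u : Completion D} :
    HasDerivAt (fun t : ℝ => Ue Q 1 GF.one (t • a) v) (I • u) 0 ↔
      C.Dom (fun q => (q.2.2 : ℂ)) v ∧ C.Psi (fun q => (q.2.2 : ℂ)) v = u := by
  simpa [pk, dot2, Wk_a h ha] using C.hasDerivAt_iff isPair_pk (y := (0, 0, 1)) (v := v) (u := u)

/-- the functions of `P` in the two calculi -/
theorem common_P (h : Grp0 Q 𝒜 S) (ha : IsNull a) (Ct : TC Q) :
    (∀ f : ℝ → ℂ, Bd f → ∀ v, C.Phi (fun q => f q.2.2) v = Ct.Phi (fun p => f (GF.mdot a p)) v) ∧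
    (∀ v, (C.nu v).map (fun q => q.2.2) = (Ct.nu v).map fun p => GF.mdot a p) ∧
    ∀ f : ℝ → ℂ, Measurable f → ∀ v,
      (C.Dom (fun q => f q.2.2) v ↔ Ct.Dom (fun p => f (GF.mdot a p)) v) ∧
      C.Psi (fun q => f q.2.2) v = Ct.Psi (fun p => f (GF.mdot a p)) v := by
  refine common isPair_mul C.toCalc Ct.toCalc (measurable_snd.comp measurable_snd) (meas_md a)
    fun t v => ?_
  have h1 := Phi_a C h ha t v
  rw [← Ct.Phi_ch] at h1
  simp only [ch, mul_comm _ t, h1]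
  congr 2
  funext p
  simp only [ch, md_smul, md_comm p a]

variable (R : Rep Q A) (h : Grp1 Q 𝒜 S) (F : Fr a b e)
include R h F

lemma tv_Wk (y : E2) (x : KX) (z : Completion D) : Ue Q 1 GF.one (tv e y) (Wk Q S a e x z) =
    Wk Q S a e (x.1, x.2.1 - (2 * x.1) • y, x.2.2 + x.1 * dot y y - dot x.2.1 y)
      (Ue Q 1 GF.one (tv e y) z) := by
  have hT := (urep_tr R).add
  have hG := (urep_G R F).add
  simp only [Wk]
  rw [← hT, add_comm _ (tv e y), hT, G_tv R F, hT, S_tv R h F]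
  simp only [S_G h.toGrp0 F, S_a h F.ha, G_a R F]
  simp only [← hT, ← hG, add_sub_cancel]
  congr 1
  simp only [dot2, Pi.sub_apply, Pi.smul_apply, smul_eq_mul]
  module

/-- **covariance under the transverse translations** -/
theorem tv_Phi (y : E2) {f : KX → ℂ} (hf : Bd f) (v : Completion D) :
    Ue Q 1 GF.one (tv e y) (C.Phi f v) =
      C.Phi (fun q => f (ky y q)) (Ue Q 1 GF.one (tv e y) v) :=
  C.cov C isPair_pk (ky_meas y) (fun q x => by
    simp only [pk, ky, dot2, Pi.sub_apply, Pi.smul_apply, smul_eq_mul]; ring)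
    (UL Q one_pos H496.isLor_one (tv e y)) (fun x => tv_Wk R h F y x v) hf

theorem tv_Psi (y : E2) {f : KX → ℂ} {v : Completion D} (hf : C.Dom f v) :
    C.Dom (fun q => f (ky y q)) (Ue Q 1 GF.one (tv e y) v) ∧
      C.Psi (fun q => f (ky y q)) (Ue Q 1 GF.one (tv e y) v) =
        Ue Q 1 GF.one (tv e y) (C.Psi f v) :=
  Calc.Psi_intertwine (W := UL Q one_pos H496.isLor_one (tv e y)) (ky_meas y)
    (fun _ hg => tv_Phi C R h F y hg v) hf

theorem tv_nu (y : E2) (v : Completion D) :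
    (C.nu (Ue Q 1 GF.one (tv e y) v)).map (ky y) = C.nu v :=
  Calc.nu_intertwine (W := Ue Q 1 GF.one (tv e y)) (Ue_norm one_pos H496.isLor_one _) (ky_meas y)
    fun _ hB => tv_Phi C R h F y (Bd.ind hB) v

section Scale

variable {σ ρ : ℝ} {L : Ix → V} (hσ : 0 < σ) (hρ : 0 < ρ) (hL : IsLor L)
  (hLa : sim 1 L 0 a = ρ • a) (hLe : ∀ w, sim 1 L 0 (tv e w) = tv e w)
include hσ hρ hL hLa hLe

omit hρ h in
lemma sc_G (w : E2) (z : Completion D) : Ue Q σ L 0 (Ue Q 1 (Gm a e w) 0 z) =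
    Ue Q 1 (Gm a e (ρ • w)) 0 (Ue Q σ L 0 z) := by
  rw [Ue_mul R hσ one_pos hL (F.lor w) (M := fun m => sim 1 L 0 (Gm a e w m))
    (fun x => (sim_comp _ _ _).symm), Ue_mul R one_pos hσ (F.lor _) hL
    (M := fun m => sim 1 L 0 (Gm a e w m)) (fun x => ?_), mul_one, one_mul, H26.sim_00,
    sim_s σ, H26.sim_00, smul_zero]
  have e1 : ρ * GF.mdot a (sim 1 L 0 x) = GF.mdot a x := by
    rw [← md_smul_l, ← hLa, md_LL hL]
  have e2 : GF.mdot (tv e w) (sim 1 L 0 x) = GF.mdot (tv e w) x := by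
    rw [← md_LL hL (tv e w) x, hLe]
  rw [sim_comp, F.sim_Gm, F.sim_Gm]
  simp only [simL_add, simL_sub, simL_smul, hLa, hLe, tv_smul, md_smul_l, e2, ← e1, dot2,
    Pi.smul_apply, smul_eq_mul]
  module

lemma sc_Wk (x : KX) (z : Completion D) : Ue Q σ L 0 (Wk Q S a e x z) =
    Wk Q S a e (ρ / σ * x.1, ρ • x.2.1, σ * ρ * x.2.2) (Ue Q σ L 0 z) := by
  simp only [Wk]
  rw [h.cov σ L ρ a a _ _ hσ hρ hL F.ha F.ha hLa, sc_G R F hσ hL hLa hLe, Ue_tr R hσ hL, sim_s σ,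
    simL_smul, hLa, smul_smul, smul_smul, mul_right_comm]

/-- **covariance under the similitudes that preserve the frame** -/
theorem sc_Phi {f : KX → ℂ} (hf : Bd f) (v : Completion D) :
    Ue Q σ L 0 (C.Phi f v) = C.Phi (fun q => f (ks σ ρ q)) (Ue Q σ L 0 v) :=
  C.cov C isPair_pk (ks_meas σ ρ) (fun q x => by
    simp only [pk, ks, dot2, Pi.smul_apply, smul_eq_mul]; ring)
    (UL Q hσ hL 0) (fun x => sc_Wk R h F hσ hρ hL hLa hLe x v) hf

theorem sc_Psi {f : KX → ℂ} {v : Completion D} (hf : C.Dom f v) :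
    C.Dom (fun q => f (ks σ ρ q)) (Ue Q σ L 0 v) ∧
      C.Psi (fun q => f (ks σ ρ q)) (Ue Q σ L 0 v) = Ue Q σ L 0 (C.Psi f v) :=
  Calc.Psi_intertwine (W := UL Q hσ hL 0) (ks_meas σ ρ)
    (fun _ hg => sc_Phi C R h F hσ hρ hL hLa hLe hg v) hf

end Scale

lemma knu_om : C.nu (om Q) = Measure.dirac 0 := by
  refine (C.nu_unique isPair_pk fun y => ?_).symm
  rw [integral_dirac, Wk, (ublock R).vac 1 _ _ one_pos H496.isLor_one,
    (ublock R).vac 1 _ _ one_pos (F.lor _), h.vac a _ F.ha, inner_om]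
  simp [ch, pk, dot2]

lemma kPhi_om {f : KX → ℂ} (hf : Bd f) : C.Phi f (om Q) = f 0 • om Q := by
  rw [← C.const_apply]
  refine C.congr_ae hf (Bd.const _) ?_
  rw [knu_om C R h F]
  exact ae_eq_dirac f

variable (hV : UVac Q)
include hV

theorem ae_p_pos {v : Completion D} (hv : inner ℂ (om Q) v = 0) : ∀ᵐ q ∂C.nu v, 0 < q.2.2 := by
  obtain ⟨Ct⟩ := exists_TC R
  have h1 := ae_md_pos R Ct hV F.ha hv
  have hm : MeasurableSet {t : ℝ | 0 < t} := measurableSet_Ioi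
  rw [← ae_map_iff (meas_md a).aemeasurable hm, ← (common_P C h.toGrp0 F.ha Ct).2.1,
    ae_map_iff (f := fun q : KX => q.2.2) (measurable_snd.comp measurable_snd).aemeasurable hm]
    at h1
  exact h1

theorem ae_p (v : Completion D) : ∀ᵐ q ∂C.nu v, 0 < q.2.2 ∨ q = 0 := by
  rw [← sub_add_cancel v (inner ℂ (om Q) v • om Q)]
  refine Calc.ae_add (B := {q : KX | 0 < q.2.2 ∨ q = 0}) ?_ (Calc.ae_smul _ ?_)
  · exact (ae_p_pos C R h F hV (by rw [inner_sub_right, inner_smul_right, inner_om]; simp)).mono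
      fun q => Or.inl
  · rw [knu_om C R h F, ae_dirac_eq]
    exact Or.inr rfl

theorem ae_k0_nonneg (v : Completion D) : ∀ᵐ q ∂C.nu v, 0 ≤ k0 q := by
  filter_upwards [ae_p C R h F hV v] with q hq
  rcases hq with hq | rfl
  · rw [k0, dot2]
    exact div_nonneg (add_nonneg (mul_self_nonneg _) (mul_self_nonneg _)) hq.le
  · simp [k0]

/-- functions of `K - M²/P` commute with the transverse translations -/
theorem tv_kt (y : E2) {f : ℝ → ℂ} (hf : Bd f) (v : Completion D) :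
    Ue Q 1 GF.one (tv e y) (C.Phi (fun q => f (kt q)) v) =
      C.Phi (fun q => f (kt q)) (Ue Q 1 GF.one (tv e y) v) := by
  rw [tv_Phi C R h F y (hf.comp kt_meas)]
  refine C.congr_ae (hf.comp (kt_meas.comp (ky_meas y))) (hf.comp kt_meas) ?_
  filter_upwards [ae_p C R h F hV _] with q hq
  rw [Function.comp_apply, kt_ky y hq]

theorem tv_kt_Psi (y : E2) {f : ℝ → ℂ} (hm : Measurable f) {v : Completion D}
    (hf : C.Dom (fun q => f (kt q)) v) :
    C.Dom (fun q => f (kt q)) (Ue Q 1 GF.one (tv e y) v) ∧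
      C.Psi (fun q => f (kt q)) (Ue Q 1 GF.one (tv e y) v) =
        Ue Q 1 GF.one (tv e y) (C.Psi (fun q => f (kt q)) v) := by
  obtain ⟨h1, h2⟩ := tv_Psi C R h F y hf
  have e1 : (fun q => f (kt (ky y q))) =ᵐ[C.nu (Ue Q 1 GF.one (tv e y) v)] fun q => f (kt q) := by
    filter_upwards [ae_p C R h F hV _] with q hq
    rw [kt_ky y hq]
  exact ⟨h1.congr_ae (hm.comp kt_meas) e1, (Calc.Psi_congr_ae h1 (hm.comp kt_meas) e1).symm.trans h2⟩

/-- **K0 criterion** -/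
theorem k0_crit {ψ ψ' : Completion D} (hψ : inner ℂ (om Q) ψ' = 0)
    (h1 : C.Dom (fun q => (dot q.2.1 q.2.1 : ℝ)) ψ) (h2 : C.Dom (fun q => (q.2.2 : ℂ)) ψ')
    (h3 : C.Psi (fun q => (dot q.2.1 q.2.1 : ℝ)) ψ = C.Psi (fun q => (q.2.2 : ℂ)) ψ') :
    C.Dom (fun q => (k0 q : ℂ)) ψ ∧ C.Psi (fun q => (k0 q : ℂ)) ψ = ψ' := by
  simpa only [k0, ofReal_div] using Calc.Psi_div h1 h2 h3
    ((ae_p_pos C R h F hV hψ).mono fun q hq => ofReal_ne_zero.2 hq.ne')

variable (hpos : ∀ z w : Completion D, HasDerivAt (fun c : ℝ => S a c z) (I • w) 0 →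
  0 ≤ (inner ℂ z w).re)
include hpos

omit R h F hV in
theorem ae_k_nonneg (v : Completion D) : ∀ᵐ q ∂C.nu v, 0 ≤ q.1 :=
  Calc.ae_nonneg_of_form measurable_fst (fun z hz => hpos z _ ((der_S C).2 ⟨hz, rfl⟩)) v

omit hV in
theorem ae_ky_nonneg (y : E2) (v : Completion D) : ∀ᵐ q ∂C.nu v, 0 ≤ (ky y q).1 := by
  have h1 := ae_k_nonneg C hpos (Ue Q 1 GF.one (-tv e y) v)
  rw [← tv_nu C R h F y, (urep_tr R).neg_right,
    ae_map_iff (ky_meas y).aemeasurable (measurableSet_le measurable_const measurable_fst)] at h1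
  exact h1

/-- **positivity of `K - M²/P`** -/
theorem ae_kt_nonneg (v : Completion D) : ∀ᵐ q ∂C.nu v, 0 ≤ kt q := by
  obtain ⟨s, hs, hd⟩ := TopologicalSpace.exists_countable_dense E2
  filter_upwards [ae_p C R h F hV v, (ae_ball_iff hs).2 fun y _ => ae_ky_nonneg C R h F hpos y v]
    with q hq h1
  rcases hq with hq | rfl
  · have hc : Continuous fun y : E2 => (ky y q).1 := by
      simp only [ky, dot2]
      fun_prop
    have h2 : 0 ≤ (ky (q.2.2⁻¹ • q.2.1) q).1 :=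
      closure_minimal h1 (isClosed_le continuous_const hc) (hd _)
    refine h2.trans_eq ?_
    simp only [kt, k0, ky, dot2, Pi.smul_apply, smul_eq_mul]
    field_simp
    ring
  · simp [kt, k0]

theorem ae_kt_le (v : Completion D) : ∀ᵐ q ∂C.nu v, |kt q| ≤ |q.1| ∧ |k0 q| ≤ |q.1| := by
  filter_upwards [ae_kt_nonneg C R h F hV hpos v, ae_k0_nonneg C R h F hV v] with q h1 h2
  rw [kt] at h1
  rw [kt, abs_of_nonneg h1, abs_of_nonneg h2, abs_of_nonneg (by linarith : 0 ≤ q.1)]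
  constructor <;> linarith

/-- **`D(K) = D(Kt) ∩ D(K0)`**, `K = Kt + K0` -/
theorem dom_K {v : Completion D} : C.Dom (fun q => (q.1 : ℂ)) v ↔
    C.Dom (fun q => (kt q : ℂ)) v ∧ C.Dom (fun q => (k0 q : ℂ)) v := by
  constructor
  · intro hv
    have h1 := ae_kt_le C R h F hV hpos v
    exact ⟨hv.of_le (measurable_ofReal.comp kt_meas) (K := 1) (h1.mono fun q hq => by
        simpa using hq.1),
      hv.of_le (measurable_ofReal.comp k0_meas) (K := 1) (h1.mono fun q hq => by simpa using hq.2)⟩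
  · intro hv
    simpa [kt] using hv.1.add hv.2

omit R h F hV hpos in
theorem K_eq {v : Completion D} (h1 : C.Dom (fun q => (kt q : ℂ)) v)
    (h2 : C.Dom (fun q => (k0 q : ℂ)) v) : C.Psi (fun q => (q.1 : ℂ)) v =
      C.Psi (fun q => (kt q : ℂ)) v + C.Psi (fun q => (k0 q : ℂ)) v := by
  rw [← Calc.Psi_add h1 h2]
  simp [kt]

theorem norm_kt_pow (n : ℕ) {v : Completion D} (hv : C.Dom (fun q => (q.1 : ℂ) ^ n) v) :
    C.Dom (fun q => (kt q : ℂ) ^ n) v ∧
      ‖C.Psi (fun q => (kt q : ℂ) ^ n) v‖ ≤ ‖C.Psi (fun q => (q.1 : ℂ) ^ n) v‖ := by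
  have hm : Measurable fun q => (kt q : ℂ) ^ n := (measurable_ofReal.comp kt_meas).pow_const n
  have h1 : ∀ᵐ q ∂C.nu v, ‖(kt q : ℂ) ^ n‖ ≤ 1 * ‖(q.1 : ℂ) ^ n‖ := by
    filter_upwards [ae_kt_le C R h F hV hpos v] with q hq
    rw [one_mul, norm_pow, norm_pow, norm_real, norm_real]
    exact pow_le_pow_left₀ (norm_nonneg _) hq.1 n
  exact ⟨hv.of_le hm h1, by simpa using Calc.norm_Psi_le hv hm zero_le_one h1⟩

end Calc

/-- antiunitary maps that invert the group commute with `K`, `M` and `P` -/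
theorem J_Phi (C : KC Q S a e) (J : Completion D →L⋆[ℂ] Completion D)
    (hJ : ∀ x z, J (Wk Q S a e x z) = Wk Q S a e (-x) (J z)) {f : KX → ℂ} (hf : Bd f)
    (v : Completion D) : J (C.Phi f v) = C.Phi (fun q => conj (f q)) (J v) :=
  C.cov_anti C isPair_pk measurable_id (fun q x => by rw [isPair_pk.neg, neg_neg]; rfl) J
    (fun x => hJ x v) hf

theorem J_Psi (C : KC Q S a e) (J : Completion D →L⋆[ℂ] Completion D)
    (hJ : ∀ x z, J (Wk Q S a e x z) = Wk Q S a e (-x) (J z)) {f : KX → ℂ} {v : Completion D}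
    (hf : C.Dom f v) : C.Dom (fun q => conj (f q)) (J v) ∧
      C.Psi (fun q => conj (f q)) (J v) = J (C.Psi f v) :=
  Calc.Psi_intertwine_anti measurable_id (fun _ hg => J_Phi C J hJ hg v) hf

end Vale.Agent.P352X.Kin

end
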